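import Mathlib
import Vale.Agent.P095.Defs
import Vale.Agent.P095.WeightsMain

/-!
The scalar side of sector averaging: Fejer combinations of positive powers of a complex kernel of
positive type have almost nonnegative real part, so their normalised real parts lie in the domain
of the weights.
-/

noncomputable section

open Finset Matrix
open scoped ComplexOrder ComplexConjugate

namespace Vale.Agent.P095.General.Sector

universe v

/-- The Fejer weight of the power i + 1. -/
def wt (n i : ℕ) : ℝ := ((n : ℝ) - 1 - i) / ((n : ℝ) * ((n : ℝ) - 1) / 2)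

/-- The Fejer combination of the positive powers. -/
def fej {R : Type*} [Ring R] [Module ℝ R] (n : ℕ) (x : R) : R :=
  ∑ i ∈ range n, wt n i • x ^ (i + 1)

/-- The error of the Fejer combination. -/
def err (n : ℕ) : ℝ := ((n : ℝ) - 1)⁻¹

lemma sum_range_sub_mul {R : Type*} [AddCommGroup R] [Module ℝ R] (f : ℕ → R) (n : ℕ) :
    ∑ i ∈ range n, ((n : ℝ) - 1 - i) • f i = ∑ m ∈ range n, ∑ i ∈ range m, f i := by
  induction n with
  | zero => simp
  | succ n ih =>
    rw [sum_range_succ, sum_range_succ _ n, ← ih, ← sum_add_distrib]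
    push_cast
    rw [show ((n : ℝ) + 1 - 1 - n) = 0 by ring, zero_smul, add_zero]
    refine sum_congr rfl fun i _ => ?_
    rw [show ((n : ℝ) + 1 - 1 - i) = ((n : ℝ) - 1 - i) + 1 by ring, add_smul, one_smul]

lemma wt_nonneg {n i : ℕ} (hi : i < n) : 0 ≤ wt n i := by
  have h : ((i : ℝ) + 1) ≤ n := by exact_mod_cast hi
  have h1 : (1 : ℝ) ≤ n := by linarith [Nat.cast_nonneg (α := ℝ) i]
  exact div_nonneg (by linarith) (by positivity [sub_nonneg.2 h1])

lemma sum_wt {n : ℕ} (hn : 2 ≤ n) : ∑ i ∈ range n, wt n i = 1 := by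
  have h2 : (2 : ℝ) ≤ n := by exact_mod_cast hn
  simp only [wt, ← sum_div]
  rw [div_eq_one_iff_eq (by nlinarith)]
  have h := sum_range_sub_mul (fun _ => (1 : ℝ)) n
  simp only [smul_eq_mul, mul_one, sum_const, card_range, nsmul_eq_mul] at h
  rw [h]
  have : ∀ k : ℕ, ∑ m ∈ range k, (m : ℝ) = (k : ℝ) * ((k : ℝ) - 1) / 2 := by
    intro k
    induction k with
    | zero => simp
    | succ k ih => rw [sum_range_succ, ih]; push_cast; ring
  exact this n

lemma fej_one {n : ℕ} (hn : 2 ≤ n) : fej n (1 : ℂ) = 1 := by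
  simp only [fej, one_pow, Complex.real_smul, mul_one, ← Complex.ofReal_sum, sum_wt hn,
    Complex.ofReal_one]

lemma fej_conj (n : ℕ) (z : ℂ) : fej n (conj z) = conj (fej n z) := by
  simp [fej, Complex.real_smul]

/-- The Fejer identity, as an inequality. -/
lemma norm_sq_le_sum {z : ℂ} (hz : ‖z‖ ≤ 1) (n : ℕ) :
    Complex.normSq (∑ i ∈ range n, z ^ i) ≤
      n + 2 * (∑ m ∈ range n, ∑ i ∈ range m, z ^ (i + 1)).re := by
  induction n with
  | zero => simp
  | succ n ih =>
    have hs : ∑ i ∈ range (n + 1), z ^ i = 1 + z * ∑ i ∈ range n, z ^ i := by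
      rw [sum_range_succ', pow_zero, add_comm, mul_sum]
      simp [pow_succ']
    have hm : ∑ i ∈ range n, z ^ (i + 1) = z * ∑ i ∈ range n, z ^ i := by
      simp [mul_sum, pow_succ']
    have hsq : Complex.normSq (z * ∑ i ∈ range n, z ^ i) ≤
        Complex.normSq (∑ i ∈ range n, z ^ i) := by
      rw [Complex.normSq_mul]
      refine mul_le_of_le_one_left (Complex.normSq_nonneg _) ?_
      rw [Complex.normSq_eq_norm_sq]
      exact pow_le_one₀ (norm_nonneg z) hz
    rw [hs, Complex.normSq_add, sum_range_succ _ n, hm, Complex.add_re]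
    simp only [Complex.normSq_one, one_mul, Complex.conj_re, Nat.cast_succ] at *
    linarith

lemma neg_err_le_re_fej {n : ℕ} (hn : 2 ≤ n) {z : ℂ} (hz : ‖z‖ ≤ 1) :
    -err n ≤ (fej n z).re := by
  have h2 : (2 : ℝ) ≤ n := by exact_mod_cast hn
  have hc : 0 < (n : ℝ) * ((n : ℝ) - 1) / 2 := by nlinarith
  have h := (Complex.normSq_nonneg _).trans (norm_sq_le_sum hz n)
  have e : fej n z = ((n : ℝ) * ((n : ℝ) - 1) / 2)⁻¹ •
      ∑ m ∈ range n, ∑ i ∈ range m, z ^ (i + 1) := by
    rw [← sum_range_sub_mul, smul_sum, fej]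
    refine sum_congr rfl fun i _ => ?_
    rw [smul_smul, wt, div_eq_inv_mul]
  rw [e, Complex.smul_re, smul_eq_mul, err]
  generalize (∑ m ∈ range n, ∑ i ∈ range m, z ^ (i + 1)).re = S at h ⊢
  rw [inv_mul_eq_div, le_div_iff₀ hc]
  have : ((n : ℝ) - 1)⁻¹ * ((n : ℝ) * ((n : ℝ) - 1) / 2) = n / 2 := by
    field_simp [(by linarith : ((n : ℝ) - 1) ≠ 0)]
  linarith

variable {ι : Type v} [Fintype ι]

set_option linter.unusedSectionVars false

/-- Kernels of positive type with unit diagonal and entries of modulus at most one. -/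
structure IsKer (κ : ι → ι → ℂ) : Prop where
  herm : ∀ a b, conj (κ a b) = κ b a
  diag : ∀ a, κ a a = 1
  le_one : ∀ a b, ‖κ a b‖ ≤ 1
  psd : (Matrix.of κ).PosSemidef

lemma IsKer.pow_psd {κ : ι → ι → ℂ} (h : IsKer κ) :
    ∀ k : ℕ, (Matrix.of fun a b => κ a b ^ (k + 1)).PosSemidef
  | 0 => by simpa using h.psd
  | k + 1 => by
    have e : (Matrix.of fun a b => κ a b ^ (k + 1 + 1)) =
        Matrix.hadamard (Matrix.of fun a b => κ a b ^ (k + 1)) (Matrix.of κ) := by
      ext a b; simp [Matrix.hadamard_apply, pow_succ]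
    rw [e]
    exact (h.pow_psd k).hadamard h.psd

lemma re_fej_symm {κ : ι → ι → ℂ} (h : IsKer κ) (n : ℕ) (a b : ι) :
    (fej n (κ a b)).re = (fej n (κ b a)).re := by
  rw [← h.herm a b, fej_conj, Complex.conj_re]

lemma quad_re_pow_nonneg {κ : ι → ι → ℂ} (h : IsKer κ) (k : ℕ) (t : ι → ℝ) :
    0 ≤ quad (fun a b => (κ a b ^ (k + 1)).re) t := by
  have h1 := (h.pow_psd k).dotProduct_mulVec_nonneg (fun a => (t a : ℂ))
  have h2 : 0 ≤ (star (fun a => (t a : ℂ)) ⬝ᵥ
      (Matrix.of fun a b => κ a b ^ (k + 1)) *ᵥ fun a => (t a : ℂ)).re := by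
    rw [Complex.le_def] at h1
    simpa using h1.1
  refine h2.trans_eq ?_
  simp only [quad, dotProduct, Matrix.mulVec, Matrix.of_apply, Pi.star_apply, mul_sum,
    Complex.re_sum]
  refine sum_congr rfl fun a _ => sum_congr rfl fun b _ => ?_
  simp [Complex.mul_re]
  ring

/-- The quadratic form of the real part of the Fejer combination. -/
def fquad (n : ℕ) (κ : ι → ι → ℂ) (t : ι → ℝ) : ℝ := quad (fun a b => (fej n (κ a b)).re) t

lemma fquad_nonneg {κ : ι → ι → ℂ} (h : IsKer κ) (n : ℕ) (t : ι → ℝ) : 0 ≤ fquad n κ t := by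
  have e : fquad n κ t = ∑ i ∈ range n, wt n i * quad (fun a b => (κ a b ^ (i + 1)).re) t := by
    simp only [fquad, quad, fej, Complex.re_sum, Complex.smul_re, smul_eq_mul, mul_sum]
    rw [eq_comm, sum_comm]
    refine sum_congr rfl fun a _ => ?_
    rw [sum_comm]
    exact sum_congr rfl fun b _ => sum_congr rfl fun i _ => by ring
  rw [e]
  exact sum_nonneg fun i hi => mul_nonneg (wt_nonneg (mem_range.1 hi)) (quad_re_pow_nonneg h i t)

/-- The normalised real part. -/
def kpp (n : ℕ) (κ : ι → ι → ℂ) (a b : ι) : ℝ := ((fej n (κ a b)).re + err n) / (1 + err n)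

lemma err_nonneg {n : ℕ} (hn : 2 ≤ n) : 0 ≤ err n := by
  have h2 : (2 : ℝ) ≤ n := by exact_mod_cast hn
  exact inv_nonneg.2 (by linarith)

lemma quad_kpp {n : ℕ} (hn : 2 ≤ n) (κ : ι → ι → ℂ) (t : ι → ℝ) :
    (1 + err n) * quad (kpp n κ) t = fquad n κ t + err n * (∑ a, t a) ^ 2 := by
  have hne : (1 + err n) ≠ 0 := by linarith [err_nonneg hn]
  simp only [fquad, quad, kpp, sq, mul_sum, sum_mul, ← sum_add_distrib]
  refine sum_congr rfl fun a _ => sum_congr rfl fun b _ => ?_
  field_simp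

lemma kpp_mem_Dom {n : ℕ} (hn : 2 ≤ n) {κ : ι → ι → ℂ} (h : IsKer κ) :
    kpp n κ ∈ Dom ι := by
  have he := err_nonneg hn
  refine ⟨fun a b => by rw [kpp, kpp, re_fej_symm h], fun a b =>
    div_nonneg (by linarith [neg_err_le_re_fej hn (h.le_one a b)]) (by linarith), fun a => ?_,
    fun t => ?_⟩
  · rw [kpp, h.diag, fej_one hn, Complex.one_re]
    exact div_self (by linarith)
  · have h1 := quad_kpp hn κ t
    have h2 := fquad_nonneg h n t
    have h3 : 0 ≤ err n * (∑ a, t a) ^ 2 := by positivity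
    show 0 ≤ quad (kpp n κ) t
    exact (mul_nonneg_iff_of_pos_left (by linarith : (0 : ℝ) < 1 + err n)).1 (by linarith)

/-- For real coefficients the complex form is the real quadratic form. -/
lemma sum_conj_fej_eq {κ : ι → ι → ℂ} (h : IsKer κ) (n : ℕ) (t : ι → ℝ) :
    ∑ a, ∑ b, conj (t a : ℂ) * fej n (κ a b) * (t b : ℂ) = (fquad n κ t : ℂ) := by
  set S := ∑ a, ∑ b, conj (t a : ℂ) * fej n (κ a b) * (t b : ℂ) with hS
  have hre : S.re = fquad n κ t := by
    simp only [hS, fquad, quad, Complex.re_sum]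
    exact sum_congr rfl fun a _ => sum_congr rfl fun b _ => by simp [Complex.mul_re]; ring
  have hc : conj S = S := by
    simp only [hS, map_sum, map_mul, Complex.conj_ofReal]
    rw [sum_comm]
    refine sum_congr rfl fun a _ => sum_congr rfl fun b _ => ?_
    rw [← fej_conj, h.herm]
    ring
  rw [← hre]
  exact (Complex.conj_eq_iff_re.1 hc).symm

/-- Polynomials in the entries are bounded on kernels with entries of modulus at most one. -/
lemma exists_evR_bound (p : Poly ι) : ∃ C : ℝ, 0 ≤ C ∧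
    ∀ K : ι → ι → ℝ, (∀ a b, |K a b| ≤ 1) → |evR K p| ≤ C := by
  induction p using FreeAlgebra.induction with
  | grade0 r => exact ⟨|r|, abs_nonneg r, fun K _ => by rw [AlgHom.commutes]; simp⟩
  | grade1 ab => exact ⟨1, zero_le_one, fun K hK => by
      rw [evR, FreeAlgebra.lift_ι_apply]; exact hK _ _⟩
  | mul p q hp hq =>
    obtain ⟨C, hC, hp⟩ := hp
    obtain ⟨C', hC', hq⟩ := hq
    exact ⟨C * C', mul_nonneg hC hC', fun K hK => by
      rw [map_mul, abs_mul]; exact mul_le_mul (hp K hK) (hq K hK) (abs_nonneg _) hC⟩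
  | add p q hp hq =>
    obtain ⟨C, hC, hp⟩ := hp
    obtain ⟨C', hC', hq⟩ := hq
    exact ⟨C + C', add_nonneg hC hC', fun K hK => by
      rw [map_add]; exact (abs_add_le _ _).trans (add_le_add (hp K hK) (hq K hK))⟩

variable {P : Type v}

/-- The entry of the normalised real part, as a polynomial in the entries of the kernel. -/
def entry (n : ℕ) (x y : FreeAlgebra ℂ (ι × ι)) : FreeAlgebra ℂ (ι × ι) :=
  (1 + err n)⁻¹ • ((2⁻¹ : ℝ) • (fej n x + fej n y) + err n • (1 : FreeAlgebra ℂ (ι × ι)))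

/-- Substituting the normalised real part into polynomials. -/
def subst (n : ℕ) (j : P → ι) : Poly P →ₐ[ℝ] FreeAlgebra ℂ (ι × ι) :=
  FreeAlgebra.lift ℝ fun ab =>
    entry n (FreeAlgebra.ι ℂ (j ab.1, j ab.2)) (FreeAlgebra.ι ℂ (j ab.2, j ab.1))

/-- Evaluation at a kernel. -/
def evC (κ : ι → ι → ℂ) : FreeAlgebra ℂ (ι × ι) →ₐ[ℂ] ℂ :=
  FreeAlgebra.lift ℂ fun ab => κ ab.1 ab.2

lemma evC_subst {κ : ι → ι → ℂ} (h : IsKer κ) (n : ℕ) (j : P → ι) (p : Poly P) :
    evC κ (subst n j p) = (evR (fun a b => kpp n κ (j a) (j b)) p : ℂ) := by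
  have e : ((evC κ).restrictScalars ℝ).comp (subst n j) =
      Complex.ofRealAm.comp (evR fun a b => kpp n κ (j a) (j b)) := by
    refine FreeAlgebra.hom_ext (funext fun ab => ?_)
    obtain ⟨a, b⟩ := ab
    have e1 : ∀ x, evC κ (fej n x) = fej n (evC κ x) := fun x => by
      simp only [fej, map_sum, map_pow, AlgHom.map_smul_of_tower]
    show evC κ (subst n j (FreeAlgebra.ι ℝ (a, b))) =
      ((evR (fun a b => kpp n κ (j a) (j b)) (FreeAlgebra.ι ℝ (a, b)) : ℝ) : ℂ)
    rw [subst, evR, FreeAlgebra.lift_ι_apply, FreeAlgebra.lift_ι_apply, entry]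
    simp only [AlgHom.map_smul_of_tower, map_add, e1, map_one]
    simp only [evC, FreeAlgebra.lift_ι_apply]
    rw [← h.herm (j a) (j b), fej_conj, Complex.add_conj, Complex.real_smul, Complex.real_smul,
      Complex.real_smul, kpp]
    push_cast
    ring
  exact AlgHom.congr_fun e p

/-- The coefficient polynomials of the weights along a map of indices. -/
def coeff [Fintype P] [DecidableEq ι] (n : ℕ) (j : P → ι) (p : P → Poly P) (k : ι) :
    FreeAlgebra ℂ (ι × ι) :=
  ∑ a, if j a = k then subst n j (p a) else 0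

lemma evC_coeff [Fintype P] [DecidableEq ι] {κ : ι → ι → ℂ} (h : IsKer κ) (n : ℕ) (j : P → ι)
    (p : P → Poly P) (k : ι) :
    evC κ (coeff n j p k) =
      (push j (fun a => evR (fun s t => kpp n κ (j s) (j t)) (p a)) k : ℂ) := by
  simp only [coeff, push, map_sum, Complex.ofReal_sum]
  refine sum_congr rfl fun a _ => ?_
  split_ifs
  · rw [evC_subst h]
  · simp

end Vale.Agent.P095.General.Sector
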