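import Mathlib
import Vale.Agent.P095.General.Sector.Kernel

/-!
Sector sums along a list of commuting copies, their Gram elements, and the comparison of
normalised elementary symmetric sums with powers of means.
-/

noncomputable section

open Finset

namespace Vale.Agent.P095.General.Sector

universe u v

variable {D : Type u} [CStarAlgebra D] {I : Type*}

/-- The sum over all sets of j positions of the products of x inside and o outside. -/
def sect (x o : I → D) : List I → ℕ → D
  | [], 0 => 1
  | [], _ + 1 => 0
  | i :: l, 0 => o i * sect x o l 0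
  | i :: l, j + 1 => x i * sect x o l j + o i * sect x o l (j + 1)

lemma commute_sect {x o : I → D} {y : D} :
    ∀ (l : List I) (j : ℕ), (∀ i ∈ l, Commute y (x i) ∧ Commute y (o i)) →
      Commute y (sect x o l j)
  | [], 0, _ => by simp [sect]
  | [], j + 1, _ => by simp [sect]
  | i :: l, 0, h => by
    simp only [sect]
    exact ((h i (by simp)).2).mul_right (commute_sect l 0 fun k hk => h k (by simp [hk]))
  | i :: l, j + 1, h => by
    simp only [sect]
    exact (((h i (by simp)).1).mul_right (commute_sect l j fun k hk => h k (by simp [hk]))).add_right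
      (((h i (by simp)).2).mul_right (commute_sect l (j + 1) fun k hk => h k (by simp [hk])))

lemma map_sect {E : Type u} [CStarAlgebra E] {F : Type*} [FunLike F D E] [RingHomClass F D E]
    (φ : F) (x o : I → D) : ∀ (l : List I) (j : ℕ),
      φ (sect x o l j) = sect (fun i => φ (x i)) (fun i => φ (o i)) l j
  | [], 0 => by simp [sect]
  | [], j + 1 => by simp [sect]
  | i :: l, 0 => by simp [sect, map_sect φ x o l 0]
  | i :: l, j + 1 => by simp [sect, map_sect φ x o l j, map_sect φ x o l (j + 1)]

/-- An element killing every inside factor and fixed by every outside factor kills the sums with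
at least one inside factor. -/
lemma mul_sect_succ {x o : I → D} {C : D} (hx : ∀ i, C * x i = 0) (ho : ∀ i, C * o i = C) :
    ∀ (l : List I) (j : ℕ), C * sect x o l (j + 1) = 0
  | [], j => by simp [sect]
  | i :: l, j => by
    simp only [sect, mul_add, ← mul_assoc, hx, ho, zero_mul, zero_add]
    exact mul_sect_succ hx ho l j

/-- The Gram elements of sector sums: sums over different numbers of inside factors are
orthogonal. -/
lemma star_sect_mul_sect {x y o : I → D} (ho : ∀ i, IsSelfAdjoint (o i))
    (hox : ∀ i, o i * x i = 0) (hoy : ∀ i, o i * y i = 0)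
    (hc : ∀ i k, i ≠ k → Commute (x i) (x k) ∧ Commute (x i) (y k) ∧ Commute (y i) (y k) ∧
      Commute (x i) (star (x k)) ∧ Commute (x i) (star (y k)) ∧ Commute (y i) (star (x k)) ∧
      Commute (y i) (star (y k)) ∧ Commute (o i) (x k) ∧ Commute (o i) (y k) ∧
      Commute (o i) (o k)) :
    ∀ (l : List I), l.Nodup → ∀ j j' : ℕ, star (sect x o l j) * sect y o l j' =
      if j = j' then sect (fun i => star (x i) * y i) (fun i => o i * o i) l j else 0
  | [], _, 0, 0 => by simp [sect]
  | [], _, 0, j' + 1 => by simp [sect]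
  | [], _, j + 1, 0 => by simp [sect]
  | [], _, j + 1, j' + 1 => by by_cases h : j = j' <;> simp [sect, h]
  | i :: l, hl, j, j' => by
    obtain ⟨hi, hl'⟩ := List.nodup_cons.1 hl
    have IH := star_sect_mul_sect ho hox hoy hc l hl'
    have hne : ∀ k ∈ l, i ≠ k := fun k hk e => hi (e ▸ hk)
    have hK : ∀ m, Commute (star (x i) * y i) (star (sect x o l m)) := fun m => by
      have h1 : Commute (star (y i) * x i) (sect x o l m) := commute_sect l m fun k hk => by
        obtain ⟨c1, -, -, -, -, c6, -, -, -, -⟩ := hc i k (hne k hk)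
        obtain ⟨-, -, -, -, -, -, -, c8, c9, -⟩ := hc k i (hne k hk).symm
        have c6' : Commute (star (y i)) (x k) := by simpa using c6.star_star
        have c9' : Commute (star (y i)) (o k) := by simpa [(ho k).star_eq] using c9.symm.star_star
        exact ⟨c6'.mul_left c1, c9'.mul_left c8.symm⟩
      simpa using h1.star_star
    have hO : ∀ m, Commute (o i * o i) (star (sect x o l m)) := fun m => by
      have h1 : Commute (o i * o i) (sect x o l m) := commute_sect l m fun k hk =>
        ⟨(hc i k (hne k hk)).2.2.2.2.2.2.2.1.mul_left (hc i k (hne k hk)).2.2.2.2.2.2.2.1,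
          (hc i k (hne k hk)).2.2.2.2.2.2.2.2.2.mul_left (hc i k (hne k hk)).2.2.2.2.2.2.2.2.2⟩
      simpa [(ho i).star_eq] using h1.star_star
    have z1 : star (x i) * o i = 0 := by
      rw [← (ho i).star_eq, ← star_mul, hox, star_zero]
    have eK : ∀ m m', star (sect x o l m) * (star (x i) * (y i * sect y o l m')) =
        star (x i) * y i * (star (sect x o l m) * sect y o l m') := fun m m' => by
      rw [← mul_assoc (star (x i)), ← mul_assoc, ← (hK m).eq, mul_assoc]
    have eO : ∀ m m', star (sect x o l m) * (o i * (o i * sect y o l m')) =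
        o i * o i * (star (sect x o l m) * sect y o l m') := fun m m' => by
      rw [← mul_assoc (o i), ← mul_assoc, ← (hO m).eq, mul_assoc]
    have eA : ∀ m m', star (sect x o l m) * (star (x i) * (o i * sect y o l m')) = 0 :=
      fun m m' => by rw [← mul_assoc (star (x i)), z1, zero_mul, mul_zero]
    have eB : ∀ m m', star (sect x o l m) * (o i * (y i * sect y o l m')) = 0 :=
      fun m m' => by rw [← mul_assoc (o i), hoy, zero_mul, mul_zero]
    cases j <;> cases j' <;>
      simp only [sect, star_add, star_mul, (ho i).star_eq, add_mul, mul_add, mul_assoc, eA, eB,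
        add_zero, zero_add] <;>
      simp only [eK, eO, IH] <;> simp [mul_assoc] <;> split_ifs <;> simp

/-- Outside factors absorbed by the element on the right disappear. -/
lemma sect_mul_absorb {z o : I → D} {w : D} :
    ∀ (l : List I) (j : ℕ), (∀ i ∈ l, ∀ k ∈ l, Commute (o i) (z k)) → (∀ i, o i * w = w) →
      sect z o l j * w = sect z (fun _ => 1) l j * w
  | [], 0, _, _ => by simp [sect]
  | [], j + 1, _, _ => by simp [sect]
  | i :: l, j, hc, ho => by
    have IH := fun m => sect_mul_absorb l m
      (fun a ha b hb => hc a (by simp [ha]) b (by simp [hb])) ho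
    have hoi : ∀ m, o i * (sect z (fun _ => (1 : D)) l m * w) = sect z (fun _ => 1) l m * w :=
      fun m => by
      rw [← mul_assoc, (commute_sect l m fun k hk =>
        ⟨hc i (by simp) k (by simp [hk]), Commute.one_right _⟩).eq, mul_assoc, ho]
    cases j <;> simp only [sect, add_mul, mul_assoc, one_mul, IH, hoi]

lemma norm_sect_le {z : I → D} (hz : ∀ i, ‖z i‖ ≤ 1) :
    ∀ (l : List I) (j : ℕ), ‖sect z (fun _ => 1) l j‖ ≤ l.length.choose j
  | [], 0 => by
    rcases subsingleton_or_nontrivial D with h | h
    · simp [sect, Subsingleton.elim (1 : D) 0]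
    · simp [sect]
  | [], j + 1 => by simp [sect]
  | i :: l, 0 => by
    simp only [sect, one_mul, Nat.choose_zero_right]
    exact (norm_sect_le hz l 0).trans (le_of_eq (by simp))
  | i :: l, j + 1 => by
    simp only [sect, one_mul, List.length_cons, Nat.choose_succ_succ, Nat.cast_add]
    exact (norm_add_le _ _).trans (add_le_add ((norm_mul_le _ _).trans
      ((mul_le_of_le_one_left (norm_nonneg _) (hz i)).trans (norm_sect_le hz l j)))
      (norm_sect_le hz l (j + 1)))

lemma norm_diag_le {z : I → D} (hz : ∀ i, ‖z i‖ ≤ 1) :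
    ∀ (l : List I), (∀ i ∈ l, ∀ k ∈ l, Commute (z i) (z k)) → ∀ j : ℕ,
      ‖(l.map z).sum * sect z (fun _ => 1) l j - (j + 1) • sect z (fun _ => 1) l (j + 1)‖ ≤
        j * l.length.choose j
  | [], _, j => by cases j <;> simp [sect]
  | i :: l, hc, j => by
    have IH := norm_diag_le hz l fun a ha b hb => hc a (by simp [ha]) b (by simp [hb])
    have hS : Commute (z i) (l.map z).sum := Commute.list_sum_right _ _ fun b hb => by
      obtain ⟨k, hk, rfl⟩ := List.mem_map.1 hb
      exact hc i (by simp) k (by simp [hk])
    cases j with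
    | zero =>
      have e : ((i :: l).map z).sum * sect z (fun _ => 1) (i :: l) 0 -
          (0 + 1) • sect z (fun _ => 1) (i :: l) (0 + 1) =
          (l.map z).sum * sect z (fun _ => 1) l 0 - (0 + 1) • sect z (fun _ => 1) l (0 + 1) := by
        simp only [List.map_cons, List.sum_cons, sect, one_mul, zero_add, one_smul, add_mul]
        abel
      rw [e]
      simpa using IH 0
    | succ j =>
      have e : ((i :: l).map z).sum * sect z (fun _ => 1) (i :: l) (j + 1) -
          (j + 1 + 1) • sect z (fun _ => 1) (i :: l) (j + 1 + 1) =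
          ((l.map z).sum * sect z (fun _ => 1) l (j + 1) -
            (j + 1 + 1) • sect z (fun _ => 1) l (j + 1 + 1)) +
          z i * ((l.map z).sum * sect z (fun _ => 1) l j - (j + 1) • sect z (fun _ => 1) l (j + 1)) +
          z i * (z i * sect z (fun _ => 1) l j) := by
        simp only [List.map_cons, List.sum_cons, sect, one_mul, add_mul, mul_add, mul_sub,
          mul_smul_comm, smul_add, succ_nsmul, ← mul_assoc, hS.eq]
        abel
      rw [e]
      have hz1 : ∀ a : D, ‖z i * a‖ ≤ ‖a‖ := fun a =>
        (norm_mul_le _ _).trans (mul_le_of_le_one_left (norm_nonneg _) (hz i))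
      refine (norm_add₃_le).trans ((add_le_add (add_le_add (IH (j + 1))
        ((hz1 _).trans (IH j))) ((hz1 _).trans ((hz1 _).trans (norm_sect_le hz l j)))).trans
          (le_of_eq ?_))
      simp only [List.length_cons, Nat.choose_succ_succ]
      push_cast
      ring

/-- Normalised elementary symmetric sums of commuting contractions are close to powers of the
mean. -/
lemma norm_sect_sub_pow_le {z : I → D} (hz : ∀ i, ‖z i‖ ≤ 1) (l : List I)
    (hc : ∀ i ∈ l, ∀ k ∈ l, Commute (z i) (z k)) :
    ∀ j : ℕ, j < l.length →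
      ‖((l.length.choose j : ℝ)⁻¹) • sect z (fun _ => 1) l j -
          ((l.length : ℝ)⁻¹ • (l.map z).sum) ^ j‖ ≤ 2 * (j : ℝ) ^ 2 / ((l.length : ℝ) - j) := by
  set κ : D := (l.length : ℝ)⁻¹ • (l.map z).sum with hκ
  intro j hj
  induction j with
  | zero =>
    have : sect z (fun _ => (1 : D)) l 0 = 1 := by
      clear hj hκ κ hc hz
      induction l with
      | nil => rfl
      | cons i l ih => simp [sect, ih]
    simp [this]
  | succ j ih =>
    have hjl : j < l.length := by omega
    have hM : (0 : ℝ) < l.length := by exact_mod_cast (by omega : 0 < l.length)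
    have hMj : (0 : ℝ) < (l.length : ℝ) - j := sub_pos.2 (by exact_mod_cast hjl)
    have hMj1 : (0 : ℝ) < (l.length : ℝ) - (j + 1 : ℕ) := sub_pos.2 (by exact_mod_cast hj)
    have hκ1 : ‖κ‖ ≤ 1 := by
      rw [hκ, norm_smul, norm_inv, Real.norm_of_nonneg hM.le, inv_mul_le_one₀ hM]
      refine (norm_multiset_sum_le (↑(l.map z) : Multiset D)).trans ?_
      rw [Multiset.map_coe, Multiset.sum_coe, List.map_map]
      refine (List.sum_le_card_nsmul _ (1 : ℝ) fun a ha => ?_).trans (by simp)
      obtain ⟨k, -, rfl⟩ := List.mem_map.1 ha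
      exact hz k
    set E := fun m => sect z (fun _ => (1 : D)) l m with hE
    set R := (l.map z).sum * E j - (j + 1) • E (j + 1) with hR
    have hch : ((l.length.choose (j + 1) : ℝ)) * (j + 1) =
        (l.length.choose j : ℝ) * ((l.length : ℝ) - j) := by
      rw [← Nat.cast_sub hjl.le]
      exact_mod_cast Nat.choose_succ_right_eq l.length j
    have hc0 : (0 : ℝ) < l.length.choose j := by exact_mod_cast Nat.choose_pos hjl.le
    have e : (l.length.choose (j + 1) : ℝ)⁻¹ • E (j + 1) =
        ((l.length : ℝ) / ((l.length : ℝ) - j)) • (κ * ((l.length.choose j : ℝ)⁻¹ • E j)) -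
          ((l.length : ℝ) - j)⁻¹ • ((l.length.choose j : ℝ)⁻¹ • R) := by
      have hc1 : (l.length.choose (j + 1) : ℝ)⁻¹ =
          (((l.length : ℝ) - j) * l.length.choose j)⁻¹ * (j + 1) := by
        rw [mul_comm ((l.length : ℝ) - j), ← hch]
        field_simp
      rw [hR, hκ, smul_mul_assoc, mul_smul_comm, ← Nat.cast_smul_eq_nsmul ℝ (j + 1)]
      simp only [smul_smul, smul_sub, hc1]
      rw [eq_sub_iff_add_eq]
      match_scalars <;> field_simp <;> ring
    have hR1 : ‖(l.length.choose j : ℝ)⁻¹ • R‖ ≤ j := by
      rw [norm_smul, norm_inv, Real.norm_of_nonneg hc0.le, inv_mul_le_iff₀ hc0, mul_comm]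
      exact norm_diag_le hz l hc j
    have hE1 : ‖(l.length.choose j : ℝ)⁻¹ • E j‖ ≤ 1 := by
      rw [norm_smul, norm_inv, Real.norm_of_nonneg hc0.le, inv_mul_le_one₀ hc0]
      exact norm_sect_le hz l j
    have e2 : (l.length.choose (j + 1) : ℝ)⁻¹ • E (j + 1) - κ ^ (j + 1) =
        κ * ((l.length.choose j : ℝ)⁻¹ • E j - κ ^ j) +
          (((j : ℝ) / ((l.length : ℝ) - j)) • (κ * ((l.length.choose j : ℝ)⁻¹ • E j)) -
          ((l.length : ℝ) - j)⁻¹ • ((l.length.choose j : ℝ)⁻¹ • R)) := by
      rw [e, pow_succ', mul_sub]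
      have : (l.length : ℝ) / ((l.length : ℝ) - j) = 1 + (j : ℝ) / ((l.length : ℝ) - j) := by
        field_simp; ring
      rw [this, add_smul, one_smul]
      abel
    show ‖(l.length.choose (j + 1) : ℝ)⁻¹ • E (j + 1) - κ ^ (j + 1)‖ ≤ _
    rw [e2]
    refine (norm_add_le _ _).trans ((add_le_add ((norm_mul_le _ _).trans
      ((mul_le_of_le_one_left (norm_nonneg _) hκ1).trans (ih hjl)))
      ((norm_sub_le _ _).trans (add_le_add
        (by
          rw [norm_smul, Real.norm_of_nonneg (div_nonneg (Nat.cast_nonneg _) hMj.le)]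
          exact mul_le_of_le_one_right (div_nonneg (Nat.cast_nonneg _) hMj.le)
            ((norm_mul_le _ _).trans (mul_le_one₀ hκ1 (norm_nonneg _) hE1)) :
          _ ≤ (j : ℝ) / ((l.length : ℝ) - j))
        (by
          rw [norm_smul, norm_inv, Real.norm_of_nonneg hMj.le]
          exact mul_le_mul_of_nonneg_left hR1 (inv_nonneg.2 hMj.le) :
          _ ≤ ((l.length : ℝ) - j)⁻¹ * j)))).trans ?_)
    rw [inv_mul_eq_div, ← add_div, ← add_div, div_le_div_iff₀ hMj hMj1]
    push_cast
    have h1 : (0 : ℝ) ≤ j := Nat.cast_nonneg j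
    nlinarith

end Vale.Agent.P095.General.Sector
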