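import Mathlib
import Vale.Agent.P095.General.Sector.Sum

/-!
Data for sector averaging: copies of partial isometries between frames, the averaged kernel, and
the exact formula for the square modulus of a sector combination.
-/

noncomputable section

open Finset
open scoped ComplexConjugate

namespace Vale.Agent.P095.General.Sector

set_option linter.unusedSectionVars false

universe u v

/-- A polynomial in elements commuting with x commutes with x. -/
lemma commute_lift {X : Type*} {R : Type u} [Ring R] [Algebra ℂ R] (f : X → R) (x : R)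
    (h : ∀ a, Commute x (f a)) (p : FreeAlgebra ℂ X) : Commute x (FreeAlgebra.lift ℂ f p) := by
  induction p using FreeAlgebra.induction with
  | grade0 r => rw [AlgHom.commutes]; exact Algebra.commute_algebraMap_right r x
  | grade1 a => rw [FreeAlgebra.lift_ι_apply]; exact h a
  | mul p q hp hq => rw [map_mul]; exact hp.mul_right hq
  | add p q hp hq => rw [map_add]; exact hp.add_right hq

lemma norm_one_le {D : Type u} [CStarAlgebra D] : ‖(1 : D)‖ ≤ 1 := by
  rcases subsingleton_or_nontrivial D with h | h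
  · simp [Subsingleton.elim (1 : D) 0]
  · exact CStarRing.norm_one.le

/-- Means of families of contractions commuting at different indices almost commute. -/
lemma norm_mean_comm_le {D : Type u} [CStarAlgebra D] {M : ℕ} (hM : 0 < M) (x y : Fin M → D)
    (hx : ∀ i, ‖x i‖ ≤ 1) (hy : ∀ i, ‖y i‖ ≤ 1) (hc : ∀ i k, i ≠ k → Commute (x i) (y k)) :
    ‖((M : ℝ)⁻¹ • ∑ i, x i) * ((M : ℝ)⁻¹ • ∑ i, y i) -
      ((M : ℝ)⁻¹ • ∑ i, y i) * ((M : ℝ)⁻¹ • ∑ i, x i)‖ ≤ 2 * (M : ℝ)⁻¹ := by
  have hM0 : (0 : ℝ) < M := by exact_mod_cast hM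
  have e : (∑ i, x i) * (∑ i, y i) - (∑ i, y i) * (∑ i, x i) =
      ∑ i, (x i * y i - y i * x i) := by
    rw [sum_mul, sum_mul]
    simp only [mul_sum]
    conv_lhs => arg 2; rw [sum_comm]
    rw [← sum_sub_distrib]
    refine sum_congr rfl fun i _ => ?_
    rw [← sum_sub_distrib]
    exact sum_eq_single i (fun k _ hk => sub_eq_zero.2 (hc i k hk.symm).eq) (by simp)
  simp only [smul_mul_assoc, mul_smul_comm, ← smul_sub, e, norm_smul, norm_inv,
    Real.norm_of_nonneg hM0.le]
  have h2 : ‖∑ i, (x i * y i - y i * x i)‖ ≤ 2 * (M : ℝ) := by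
    refine (norm_sum_le _ _).trans ((sum_le_card_nsmul _ _ 2 fun i _ =>
      (norm_sub_le _ _).trans ?_).trans (le_of_eq (by simp; ring)))
    have := mul_le_one₀ (hx i) (norm_nonneg _) (hy i)
    have := mul_le_one₀ (hy i) (norm_nonneg _) (hx i)
    linarith [norm_mul_le (x i) (y i), norm_mul_le (y i) (x i)]
  calc (M : ℝ)⁻¹ * ((M : ℝ)⁻¹ * ‖∑ i, (x i * y i - y i * x i)‖)
      ≤ (M : ℝ)⁻¹ * ((M : ℝ)⁻¹ * (2 * M)) := by gcongr
    _ = 2 * (M : ℝ)⁻¹ := by field_simp

/-- The data. -/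
structure Data (D : Type u) [CStarAlgebra D] (M : ℕ) (ι : Type v) where
  B : Fin M → ι → D
  b : Fin M → D
  o : Fin M → D
  C : D
  b_sa : ∀ i, IsSelfAdjoint (b i)
  o_sa : ∀ i, IsSelfAdjoint (o i)
  C_sa : IsSelfAdjoint C
  C_norm : ‖C‖ ≤ 1
  b_norm : ∀ i, ‖b i‖ ≤ 1
  BB : ∀ i k, star (B i k) * B i k = b i * b i
  oB : ∀ i k, o i * B i k = 0
  Bo : ∀ i k, B i k * o i = B i k
  ob : ∀ i, o i * b i = b i
  CB : ∀ i k, C * B i k = 0
  Co : ∀ i, C * o i = C
  bC : ∀ i, b i * C = C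
  comm : ∀ i j, i ≠ j → ∀ k l, Commute (B i k) (B j l) ∧ Commute (B i k) (star (B j l)) ∧
    Commute (B i k) (b j) ∧ Commute (B i k) (o j) ∧ Commute (b i) (b j) ∧ Commute (b i) (o j) ∧
    Commute (o i) (o j)

namespace Data

variable {D : Type u} [CStarAlgebra D] {M : ℕ} {ι : Type v} (d : Data D M ι)

/-- The Gram element of one copy. -/
def gram (i : Fin M) (k l : ι) : D := star (d.B i k) * d.B i l

/-- The averaged kernel. -/
def kbar (k l : ι) : D := (M : ℝ)⁻¹ • ∑ i, d.gram i k l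

/-- The averaged frame. -/
def d0 : D := (M : ℝ)⁻¹ • ∑ i, d.b i * d.b i

lemma norm_B (i : Fin M) (k : ι) : ‖d.B i k‖ ≤ 1 := by
  have h : ‖d.B i k‖ * ‖d.B i k‖ ≤ 1 := by
    rw [← CStarRing.norm_star_mul_self, d.BB]
    exact (norm_mul_le _ _).trans (mul_le_one₀ (d.b_norm i) (norm_nonneg _) (d.b_norm i))
  nlinarith [norm_nonneg (d.B i k)]

lemma norm_gram (i : Fin M) (k l : ι) : ‖d.gram i k l‖ ≤ 1 :=
  (norm_mul_le _ _).trans (mul_le_one₀ (by rw [norm_star]; exact d.norm_B i k) (norm_nonneg _)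
    (d.norm_B i l))

lemma norm_bb (i : Fin M) : ‖d.b i * d.b i‖ ≤ 1 :=
  (norm_mul_le _ _).trans (mul_le_one₀ (d.b_norm i) (norm_nonneg _) (d.b_norm i))

lemma star_gram (i : Fin M) (k l : ι) : star (d.gram i k l) = d.gram i l k := by
  simp [gram]

lemma star_kbar (k l : ι) : star (d.kbar k l) = d.kbar l k := by
  simp [kbar, star_sum, star_gram]

lemma kbar_self (k : ι) : d.kbar k k = d.d0 := by simp [kbar, gram, d0, d.BB]

lemma norm_mean {x : Fin M → D} (hx : ∀ i, ‖x i‖ ≤ 1) : ‖(M : ℝ)⁻¹ • ∑ i, x i‖ ≤ 1 := by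
  rcases Nat.eq_zero_or_pos M with h | h
  · subst h; simp
  · rw [norm_smul, norm_inv, Real.norm_of_nonneg (Nat.cast_nonneg M),
      inv_mul_le_one₀ (by exact_mod_cast h)]
    exact (norm_sum_le _ _).trans ((sum_le_card_nsmul _ _ 1 fun i _ => hx i).trans (by simp))

lemma norm_kbar (k l : ι) : ‖d.kbar k l‖ ≤ 1 := norm_mean fun i => d.norm_gram i k l

lemma norm_d0 : ‖d.d0‖ ≤ 1 := norm_mean d.norm_bb

lemma d0_mul_C (hM : 0 < M) : d.d0 * d.C = d.C := by
  have h : ∀ i, d.b i * (d.b i * d.C) = d.C := fun i => by rw [d.bC, d.bC]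
  simp only [d0, smul_mul_assoc, sum_mul, mul_assoc, h, sum_const, card_univ, Fintype.card_fin]
  rw [← Nat.cast_smul_eq_nsmul ℝ, smul_smul, inv_mul_cancel₀ (by exact_mod_cast hM.ne'),
    one_smul]

lemma o_mul_C (i : Fin M) : d.o i * d.C = d.C := by
  have h := congrArg star (d.Co i)
  rwa [star_mul, (d.o_sa i).star_eq, d.C_sa.star_eq] at h

lemma comm_gram {i j : Fin M} (h : i ≠ j) (k l k' l' : ι) :
    Commute (d.gram i k l) (d.gram j k' l') ∧ Commute (d.gram i k l) (d.b j * d.b j) ∧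
      Commute (d.gram i k l) (d.o j) := by
  have c1 : ∀ a a', Commute (d.B i a) (d.B j a') := fun a a' => (d.comm i j h a a').1
  have c2 : ∀ a a', Commute (d.B i a) (star (d.B j a')) := fun a a' => (d.comm i j h a a').2.1
  have cb : ∀ a, Commute (d.B i a) (d.b j) := fun a => (d.comm i j h a a).2.2.1
  have co : ∀ a, Commute (d.B i a) (d.o j) := fun a => (d.comm i j h a a).2.2.2.1
  have c3 : ∀ a a', Commute (star (d.B i a)) (d.B j a') := fun a a' => by
    simpa using (c2 a a').star_star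
  have c4 : ∀ a a', Commute (star (d.B i a)) (star (d.B j a')) := fun a a' => (c1 a a').star_star
  have cb' : Commute (star (d.B i k)) (d.b j) := by
    simpa [(d.b_sa j).star_eq] using (cb k).star_star
  have co' : Commute (star (d.B i k)) (d.o j) := by
    simpa [(d.o_sa j).star_eq] using (co k).star_star
  exact ⟨((c4 k k').mul_right (c3 k l')).mul_left ((c2 l k').mul_right (c1 l l')),
    (cb'.mul_left (cb l)).mul_right (cb'.mul_left (cb l)), co'.mul_left (co l)⟩

lemma commute_o_gram (j i : Fin M) (k l : ι) : Commute (d.o j) (d.gram i k l) := by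
  by_cases h : i = j
  · subst h
    have e1 : d.o i * star (d.B i k) = star (d.B i k) := by
      have h := congrArg star (d.Bo i k)
      rwa [star_mul, (d.o_sa i).star_eq] at h
    show _ = _
    rw [gram, ← mul_assoc, e1, mul_assoc, d.Bo]
  · exact ((d.comm_gram h k l k l).2.2).symm

lemma commute_o_kbar (j : Fin M) (k l : ι) : Commute (d.o j) (d.kbar k l) :=
  (Commute.sum_right _ _ _ fun i _ => d.commute_o_gram j i k l).smul_right _

lemma norm_comm_kbar (hM : 0 < M) (k l k' l' : ι) :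
    ‖d.kbar k l * d.kbar k' l' - d.kbar k' l' * d.kbar k l‖ ≤ 2 * (M : ℝ)⁻¹ :=
  norm_mean_comm_le hM _ _ (fun i => d.norm_gram i k l) (fun i => d.norm_gram i k' l')
    fun _ _ h => (d.comm_gram h k l k' l').1

lemma norm_comm_d0 (hM : 0 < M) (k l : ι) :
    ‖d.kbar k l * d.d0 - d.d0 * d.kbar k l‖ ≤ 2 * (M : ℝ)⁻¹ :=
  norm_mean_comm_le hM _ _ (fun i => d.norm_gram i k l) d.norm_bb
    fun _ _ h => (d.comm_gram h k l k l).2.1

variable [DecidableEq ι]

/-- The kernel with unit diagonal. -/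
def kp (k l : ι) : D := if k = l then 1 else d.kbar k l

lemma star_kp (k l : ι) : star (d.kp k l) = d.kp l k := by
  by_cases h : k = l
  · simp [kp, h]
  · simp [kp, h, Ne.symm h, star_kbar]

lemma norm_kp (k l : ι) : ‖d.kp k l‖ ≤ 1 := by
  unfold kp
  split_ifs
  · exact norm_one_le
  · exact d.norm_kbar k l

lemma commute_o_kp (j : Fin M) (k l : ι) : Commute (d.o j) (d.kp k l) := by
  unfold kp
  split_ifs
  · exact Commute.one_right _
  · exact d.commute_o_kbar j k l

lemma norm_comm_kp (hM : 0 < M) (k l k' l' : ι) :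
    ‖d.kp k l * d.kp k' l' - d.kp k' l' * d.kp k l‖ ≤ 2 * (M : ℝ)⁻¹ := by
  unfold kp
  split_ifs <;> first
    | exact d.norm_comm_kbar hM k l k' l'
    | simp

lemma kp_psd [Fintype ι] (t : ι → ℂ) :
    ∃ W, star W * W = ∑ k, ∑ l, (conj (t k) * t l) • d.kp k l := by
  classical
  let := CStarAlgebra.spectralOrder D
  have := CStarAlgebra.spectralOrderedRing D
  have h0 : ∀ {r : ℝ} {x : D}, 0 ≤ r → 0 ≤ x → 0 ≤ r • x := fun {r x} hr hx => by
    obtain ⟨y, rfl⟩ := CStarAlgebra.nonneg_iff_eq_star_mul_self.1 hx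
    refine CStarAlgebra.nonneg_iff_eq_star_mul_self.2 ⟨Real.sqrt r • y, ?_⟩
    rw [star_smul, star_trivial (Real.sqrt r), smul_mul_smul_comm, Real.mul_self_sqrt hr]
  have hW : 0 ≤ (M : ℝ)⁻¹ • ∑ i, star (∑ k, t k • d.B i k) * (∑ l, t l • d.B i l) :=
    h0 (by positivity) (sum_nonneg fun i _ => star_mul_self_nonneg _)
  have hd : 0 ≤ 1 - d.d0 := by
    have hs : IsSelfAdjoint d.d0 :=
      (IsSelfAdjoint.all ((M : ℝ)⁻¹)).smul (isSelfAdjoint_sum _ fun i _ => by
        simp [IsSelfAdjoint, star_mul, (d.b_sa i).star_eq])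
    refine sub_nonneg.2 ((IsSelfAdjoint.le_algebraMap_norm_self hs).trans ?_)
    rw [← sub_nonneg, Algebra.algebraMap_eq_smul_one]
    rw [show (1 : D) - ‖d.d0‖ • (1 : D) = (1 - ‖d.d0‖) • (1 : D) by rw [sub_smul, one_smul]]
    exact h0 (sub_nonneg.2 d.norm_d0) zero_le_one
  have hsum : 0 ≤ ((M : ℝ)⁻¹ • ∑ i, star (∑ k, t k • d.B i k) * (∑ l, t l • d.B i l)) +
      (∑ k, Complex.normSq (t k)) • (1 - d.d0) :=
    add_nonneg hW (h0 (sum_nonneg fun k _ => Complex.normSq_nonneg _) hd)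
  obtain ⟨W, hW'⟩ := CStarAlgebra.nonneg_iff_eq_star_mul_self.1 hsum
  refine ⟨W, hW'.symm.trans ?_⟩
  have e : ∀ k l, d.kp k l = d.kbar k l + if k = l then 1 - d.d0 else 0 := fun k l => by
    unfold kp
    split_ifs with h
    · subst h; rw [kbar_self]; abel
    · simp
  simp only [e, smul_add, sum_add_distrib, smul_ite, smul_zero, sum_ite_eq, mem_univ, if_true]
  congr 1
  · simp only [kbar, gram, star_sum, star_smul, sum_mul, mul_sum, smul_mul_smul_comm, smul_sum,
      Complex.star_def]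
    rw [sum_comm]
    refine (sum_congr rfl fun _ _ => sum_comm).trans (sum_comm.trans ?_)
    exact sum_congr rfl fun k _ => sum_congr rfl fun l _ => sum_congr rfl fun i _ => smul_comm _ _ _
  · rw [sum_smul]
    refine sum_congr rfl fun k _ => ?_
    rw [← Complex.normSq_eq_conj_mul_self, Complex.coe_smul]

/-- Evaluation of polynomials at the kernel. -/
def evK : FreeAlgebra ℂ (ι × ι) →ₐ[ℂ] D := FreeAlgebra.lift ℂ fun ab => d.kp ab.1 ab.2

/-- The normalised sector vector of one index. -/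
def vec (n : ℕ) (k : ι) : D := ∑ i ∈ range n, (Real.sqrt (wt n i) *
  (Real.sqrt (M.choose (i + 1)))⁻¹) • sect (fun t => d.B t k) d.o (List.finRange M) (i + 1)

/-- The normalised symmetric sums of the Gram elements. -/
def ehat (n : ℕ) (k l : ι) : D := ∑ i ∈ range n, wt n i • (((M.choose (i + 1) : ℝ))⁻¹ •
  sect (fun t => d.gram t k l) (fun _ => 1) (List.finRange M) (i + 1))

/-- A sector combination. -/
def sv [Fintype ι] (n : ℕ) (c : ι → FreeAlgebra ℂ (ι × ι)) : D :=
  ∑ k, d.vec n k * d.evK (c k) * d.C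

lemma C_mul_sv [Fintype ι] (n : ℕ) (c : ι → FreeAlgebra ℂ (ι × ι)) : d.C * d.sv n c = 0 := by
  have h : ∀ k, d.C * d.vec n k = 0 := fun k => by
    simp [vec, mul_sum, mul_sect_succ (fun i => d.CB i k) d.Co]
  simp [sv, mul_sum, ← mul_assoc, h]

lemma sv_mul_sv [Fintype ι] (n : ℕ) (c : ι → FreeAlgebra ℂ (ι × ι)) :
    d.sv n c * d.sv n c = 0 := by
  conv_lhs => arg 1; rw [sv]
  simp [sum_mul, mul_assoc, C_mul_sv]

lemma star_vec_mul_vec (n : ℕ) (k l : ι) (x : D) (hx : ∀ j, Commute (d.o j) x) :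
    star (d.vec n k) * d.vec n l * (x * d.C) = d.ehat n k l * (x * d.C) := by
  have hg : ∀ i i', star (sect (fun t => d.B t k) d.o (List.finRange M) i) *
      sect (fun t => d.B t l) d.o (List.finRange M) i' =
        if i = i' then sect (fun t => d.gram t k l) (fun t => d.o t * d.o t) (List.finRange M) i
        else 0 :=
    star_sect_mul_sect d.o_sa (fun i => d.oB i k) (fun i => d.oB i l)
      (fun i j h => ⟨(d.comm i j h k k).1, (d.comm i j h k l).1, (d.comm i j h l l).1,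
        (d.comm i j h k k).2.1, (d.comm i j h k l).2.1, (d.comm i j h l k).2.1,
        (d.comm i j h l l).2.1, (d.comm j i h.symm k k).2.2.2.1.symm,
        (d.comm j i h.symm l l).2.2.2.1.symm, (d.comm i j h k k).2.2.2.2.2.2⟩)
      _ (List.nodup_finRange M)
  have ho : ∀ t, d.o t * d.o t * (x * d.C) = x * d.C := fun t => by
    rw [← mul_assoc, ((hx t).mul_left (hx t)).eq, mul_assoc, mul_assoc, d.o_mul_C, d.o_mul_C]
  have habs : ∀ i, sect (fun t => d.gram t k l) (fun t => d.o t * d.o t) (List.finRange M) i *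
      (x * d.C) = sect (fun t => d.gram t k l) (fun _ => 1) (List.finRange M) i * (x * d.C) :=
    fun i => sect_mul_absorb _ _ (fun t _ t' _ =>
      (d.commute_o_gram t t' k l).mul_left (d.commute_o_gram t t' k l)) ho
  simp only [vec, star_sum, star_smul, star_trivial, mul_sum, sum_mul, smul_mul_smul_comm, hg]
  refine (sum_congr rfl fun i hi => sum_eq_single i (fun i' _ hne => ?_) (absurd hi)).trans ?_
  · rw [if_neg (by omega), smul_zero, zero_mul]
  rw [ehat, sum_mul]
  refine sum_congr rfl fun i hi => ?_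
  rw [if_pos rfl, smul_mul_assoc, habs, ← smul_mul_assoc, smul_smul]
  congr 2
  rw [mul_mul_mul_comm, Real.mul_self_sqrt (wt_nonneg (mem_range.1 hi)), ← mul_inv,
    Real.mul_self_sqrt (Nat.cast_nonneg _)]

lemma star_sv_mul_sv [Fintype ι] (n : ℕ) (c : ι → FreeAlgebra ℂ (ι × ι)) :
    star (d.sv n c) * d.sv n c =
      ∑ k, ∑ l, d.C * star (d.evK (c k)) * d.ehat n k l * d.evK (c l) * d.C := by
  simp only [sv, star_sum, sum_mul, mul_sum, star_mul, d.C_sa.star_eq]
  rw [sum_comm]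
  refine sum_congr rfl fun k _ => sum_congr rfl fun l _ => ?_
  have := d.star_vec_mul_vec n k l (d.evK (c l))
    fun j => commute_lift _ _ (fun ab : ι × ι => d.commute_o_kp j ab.1 ab.2) _
  simp only [mul_assoc] at this ⊢
  rw [this]

lemma norm_ehat {n : ℕ} (hn : 2 ≤ n) (k l : ι) : ‖d.ehat n k l‖ ≤ 1 := by
  refine (norm_sum_le _ _).trans ((sum_le_sum fun i hi => ?_).trans (sum_wt hn).le)
  rw [norm_smul, Real.norm_of_nonneg (wt_nonneg (mem_range.1 hi)), norm_smul, norm_inv,
    Real.norm_of_nonneg (Nat.cast_nonneg _)]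
  refine mul_le_of_le_one_right (wt_nonneg (mem_range.1 hi)) ?_
  rcases Nat.eq_zero_or_pos (M.choose (i + 1)) with h | h
  · simp [h]
  · rw [inv_mul_le_one₀ (by exact_mod_cast h)]
    exact (norm_sect_le (fun t => d.norm_gram t k l) _ _).trans (le_of_eq (by simp))

lemma norm_ehat_sub_fej {n : ℕ} (hn : 2 ≤ n) (hM : n < M) (k l : ι) :
    ‖d.ehat n k l - fej n (d.kbar k l)‖ ≤ 2 * (n : ℝ) ^ 2 / ((M : ℝ) - n) := by
  have hMn : (0 : ℝ) < (M : ℝ) - n := sub_pos.2 (by exact_mod_cast hM)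
  rw [ehat, fej, ← sum_sub_distrib]
  refine (norm_sum_le _ _).trans ((sum_le_sum (g := fun i => wt n i * (2 * (n : ℝ) ^ 2 /
    ((M : ℝ) - n))) fun i hi => ?_).trans (le_of_eq (by rw [← sum_mul, sum_wt hn, one_mul])))
  have hi' : i < n := mem_range.1 hi
  rw [← smul_sub, norm_smul, Real.norm_of_nonneg (wt_nonneg hi')]
  refine mul_le_mul_of_nonneg_left ?_ (wt_nonneg hi')
  have h := norm_sect_sub_pow_le (fun t => d.norm_gram t k l) (List.finRange M)
    (fun a _ b _ => by
      rcases eq_or_ne a b with rfl | hab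
      · exact Commute.refl _
      · exact (d.comm_gram hab k l k l).1) (i + 1) (by simp; omega)
  simp only [List.length_finRange] at h
  have e : (List.map (fun t => d.gram t k l) (List.finRange M)).sum = ∑ i, d.gram i k l :=
    (Fin.sum_univ_def _).symm
  rw [e] at h
  refine h.trans ?_
  have h1 : ((i + 1 : ℕ) : ℝ) ≤ n := by exact_mod_cast hi'
  gcongr

end Data

end Vale.Agent.P095.General.Sector
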