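import Mathlib

/-!
Ultraproducts of C*-algebras: the separation quotient of the bounded sequences for the seminorm
given by the limit of the norms along the ultrafilter.
-/

noncomputable section

open Filter Topology

namespace Vale.Agent.P095.General.Ultra

universe u

variable {A : ℕ → Type u} [∀ i, CStarAlgebra (A i)] (ω : Ultrafilter ℕ)

variable (A) in
/-- The bounded sequences. -/
def bdd : StarSubalgebra ℂ (∀ i, A i) where
  carrier := {a | ∃ C : ℝ, ∀ i, ‖a i‖ ≤ C}
  mul_mem' := fun {a b} ⟨C, ha⟩ ⟨C', hb⟩ => ⟨C * C', fun i => (norm_mul_le _ _).trans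
    (mul_le_mul (ha i) (hb i) (norm_nonneg _) ((norm_nonneg _).trans (ha i)))⟩
  one_mem' := ⟨1, fun i => by
    rcases subsingleton_or_nontrivial (A i) with h | h
    · simp [Subsingleton.elim (1 : A i) 0]
    · exact CStarRing.norm_one.le⟩
  add_mem' := fun {a b} ⟨C, ha⟩ ⟨C', hb⟩ =>
    ⟨C + C', fun i => (norm_add_le _ _).trans (add_le_add (ha i) (hb i))⟩
  zero_mem' := ⟨0, fun i => by simp⟩
  algebraMap_mem' z := ⟨‖z‖, fun i => by
    show ‖algebraMap ℂ (A i) z‖ ≤ ‖z‖
    rcases subsingleton_or_nontrivial (A i) with h | h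
    · simp [Subsingleton.elim (algebraMap ℂ (A i) z) 0]
    · rw [norm_algebraMap']⟩
  star_mem' := fun {a} ⟨C, ha⟩ => ⟨C, fun i => by simpa using ha i⟩

/-- A bounded sequence from a function and a bound. -/
def mkB (f : ∀ i, A i) (C : ℝ) (h : ∀ i, ‖f i‖ ≤ C) : bdd A := ⟨f, C, h⟩

/-- The limit of the norms along the ultrafilter. -/
def lnorm (a : bdd A) : ℝ := limUnder (ω : Filter ℕ) fun i => ‖(a : ∀ i, A i) i‖

variable {ω}

lemma tendsto_lnorm (a : bdd A) :
    Tendsto (fun i => ‖(a : ∀ i, A i) i‖) (ω : Filter ℕ) (𝓝 (lnorm ω a)) := by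
  obtain ⟨C, hC⟩ := a.2
  obtain ⟨x, -, hx⟩ := (isCompact_Icc (a := (0 : ℝ)) (b := C)).ultrafilter_le_nhds
    (ω.map fun i => ‖(a : ∀ i, A i) i‖) (by
      rw [le_principal_iff, Ultrafilter.coe_map, mem_map]
      exact Filter.univ_mem' fun i => ⟨norm_nonneg _, hC i⟩)
  have h : Tendsto (fun i => ‖(a : ∀ i, A i) i‖) (ω : Filter ℕ) (𝓝 x) := hx
  unfold lnorm
  rwa [h.limUnder_eq]

lemma lnorm_le (a : bdd A) {C : ℝ} (h : ∀ i, ‖(a : ∀ i, A i) i‖ ≤ C) : lnorm ω a ≤ C :=
  le_of_tendsto' (tendsto_lnorm a) h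

lemma lnorm_add (a b : bdd A) : lnorm ω (a + b) ≤ lnorm ω a + lnorm ω b :=
  le_of_tendsto_of_tendsto' (tendsto_lnorm _) ((tendsto_lnorm a).add (tendsto_lnorm b))
    fun _ => norm_add_le _ _

lemma lnorm_zero : lnorm ω (0 : bdd A) = 0 :=
  tendsto_nhds_unique (tendsto_lnorm _) (tendsto_const_nhds.congr fun i => by simp)

lemma lnorm_neg (a : bdd A) : lnorm ω (-a) = lnorm ω a :=
  tendsto_nhds_unique (tendsto_lnorm _) ((tendsto_lnorm a).congr fun i => by simp)

lemma lnorm_mul (a b : bdd A) : lnorm ω (a * b) ≤ lnorm ω a * lnorm ω b :=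
  le_of_tendsto_of_tendsto' (tendsto_lnorm _) ((tendsto_lnorm a).mul (tendsto_lnorm b))
    fun _ => norm_mul_le _ _

lemma lnorm_smul (z : ℂ) (a : bdd A) : lnorm ω (z • a) = ‖z‖ * lnorm ω a :=
  tendsto_nhds_unique (tendsto_lnorm _) (((tendsto_lnorm a).const_mul ‖z‖).congr fun i => by
    simp [norm_smul])

lemma lnorm_star_mul (a : bdd A) : lnorm ω (star a * a) = lnorm ω a * lnorm ω a :=
  tendsto_nhds_unique (tendsto_lnorm _) (((tendsto_lnorm a).mul (tendsto_lnorm a)).congr fun i => by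
    simp [CStarRing.norm_star_mul_self])

variable (A)

/-- Bounded sequences with the seminorm along the ultrafilter. -/
def Pre (_ω : Ultrafilter ℕ) : Type u := ↥(bdd A)

variable (ω)

instance : Ring (Pre A ω) := inferInstanceAs (Ring ↥(bdd A))
instance : StarRing (Pre A ω) := inferInstanceAs (StarRing ↥(bdd A))
instance : Algebra ℂ (Pre A ω) := inferInstanceAs (Algebra ℂ ↥(bdd A))
instance : StarModule ℂ (Pre A ω) := inferInstanceAs (StarModule ℂ ↥(bdd A))

/-- The sequence underlying an element of `Pre`. -/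
def Pre.seq (a : Pre A ω) : bdd A := a

/-- The seminorm on `Pre`. -/
def preSeminorm : AddGroupSeminorm (Pre A ω) where
  toFun a := lnorm ω (Pre.seq A ω a)
  map_zero' := lnorm_zero
  add_le' _ _ := lnorm_add _ _
  neg' _ := lnorm_neg _

instance : SeminormedAddCommGroup (Pre A ω) := (preSeminorm A ω).toSeminormedAddCommGroup

instance : SeminormedRing (Pre A ω) where
  __ : Ring (Pre A ω) := inferInstance
  __ : SeminormedAddCommGroup (Pre A ω) := inferInstance
  norm_mul_le _ _ := lnorm_mul _ _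

instance : NormedAlgebra ℂ (Pre A ω) where
  __ : Algebra ℂ (Pre A ω) := inferInstance
  norm_smul_le z _ := le_of_eq (lnorm_smul z _)

instance : NormedStarGroup (Pre A ω) :=
  ⟨fun a => (tendsto_nhds_unique (tendsto_lnorm (ω := ω) (star (Pre.seq A ω a)))
    ((tendsto_lnorm (ω := ω) (Pre.seq A ω a)).congr fun i => (norm_star _).symm)).le⟩

/-- The ultraproduct. -/
abbrev U : Type u := SeparationQuotient (Pre A ω)

instance : Star (U A ω) :=
  ⟨SeparationQuotient.lift (fun a => SeparationQuotient.mk (star a)) fun _ _ h =>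
    SeparationQuotient.mk_eq_mk.2 (h.map continuous_star)⟩

instance : StarRing (U A ω) where
  star_involutive := by
    rintro ⟨a⟩
    show SeparationQuotient.mk (star (star a)) = _
    rw [star_star]; rfl
  star_mul := by
    rintro ⟨a⟩ ⟨b⟩
    show SeparationQuotient.mk (star (a * b)) = _
    rw [star_mul]; rfl
  star_add := by
    rintro ⟨a⟩ ⟨b⟩
    show SeparationQuotient.mk (star (a + b)) = _
    rw [star_add]; rfl

instance : StarModule ℂ (U A ω) where
  star_smul z := by
    rintro ⟨a⟩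
    show SeparationQuotient.mk (star (z • a)) = _
    rw [star_smul]; rfl

instance : CStarRing (U A ω) where
  norm_mul_self_le := by
    rintro ⟨a⟩
    exact (lnorm_star_mul (Pre.seq A ω a)).ge

/-- The quotient map. -/
def proj : bdd A →⋆ₐ[ℂ] U A ω where
  toFun a := SeparationQuotient.mk (show Pre A ω from a)
  map_one' := rfl
  map_mul' _ _ := rfl
  map_zero' := rfl
  map_add' _ _ := rfl
  commutes' _ := rfl
  map_star' _ := rfl

lemma norm_proj (a : bdd A) : ‖proj A ω a‖ = lnorm ω a := rfl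

lemma proj_surjective : Function.Surjective (proj A ω) :=
  fun x => SeparationQuotient.surjective_mk x

lemma norm_proj_le (a : bdd A) {C : ℝ} (h : ∀ i, ‖(a : ∀ i, A i) i‖ ≤ C) : ‖proj A ω a‖ ≤ C :=
  lnorm_le a h

/-- Classes agree when the distances tend to zero. -/
lemma proj_eq_of_tendsto (a b : bdd A)
    (h : Tendsto (fun i => ‖(a : ∀ i, A i) i - (b : ∀ i, A i) i‖) (ω : Filter ℕ) (𝓝 0)) :
    proj A ω a = proj A ω b := by
  rw [← sub_eq_zero, ← map_sub, ← norm_eq_zero, norm_proj]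
  exact tendsto_nhds_unique (tendsto_lnorm _) h

/-- A bound on a class holds eventually up to any positive error. -/
lemma eventually_le_of_norm_le (a : bdd A) {C η : ℝ} (h : ‖proj A ω a‖ ≤ C) (hη : 0 < η) :
    ∀ᶠ i in (ω : Filter ℕ), ‖(a : ∀ i, A i) i‖ ≤ C + η := by
  rw [norm_proj] at h
  exact (tendsto_lnorm a).eventually_le_const (lt_of_le_of_lt h (lt_add_of_pos_right C hη))

/-- Every class has representatives of almost the same norm. -/
lemma exists_rep (x : U A ω) {ε : ℝ} (hε : 0 < ε) :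
    ∃ a : bdd A, proj A ω a = x ∧ ∀ i, ‖(a : ∀ i, A i) i‖ ≤ ‖x‖ + ε := by
  classical
  obtain ⟨a, rfl⟩ := proj_surjective A ω x
  have h := eventually_le_of_norm_le A ω a le_rfl hε
  set r := ‖proj A ω a‖ + ε with hr
  have hr0 : 0 ≤ r := by positivity
  set f : ∀ i, A i := fun i => if ‖(a : ∀ i, A i) i‖ ≤ r then (a : ∀ i, A i) i else 0 with hf
  have hfr : ∀ i, ‖f i‖ ≤ r := fun i => by
    simp only [hf]
    split_ifs with h <;> simp [h, hr0]
  refine ⟨mkB f r hfr, proj_eq_of_tendsto A ω _ _ (tendsto_nhds_of_eventually_eq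
    (h.mono fun i hi => ?_)), hfr⟩
  simp [mkB, hf, hi]

instance : CompleteSpace (U A ω) := by
  refine NormedAddCommGroup.completeSpace_of_summable_imp_tendsto fun u hu => ?_
  choose a ha hn using fun k => exists_rep A ω (u k) (show (0 : ℝ) < (1 / 2) ^ k by positivity)
  have hb : Summable fun k => ‖u k‖ + (1 / 2 : ℝ) ^ k := hu.add summable_geometric_two
  have hs : ∀ i, Summable fun k => (a k : ∀ i, A i) i := fun i =>
    Summable.of_norm_bounded hb fun k => hn k i
  set s : bdd A := mkB (fun i => ∑' k, (a k : ∀ i, A i) i) (∑' k, (‖u k‖ + (1 / 2 : ℝ) ^ k))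
    fun i => tsum_of_norm_bounded hb.hasSum fun k => hn k i with hsdef
  refine ⟨proj A ω s, tendsto_iff_norm_sub_tendsto_zero.2 ?_⟩
  refine squeeze_zero (fun _ => norm_nonneg _) (fun K => ?_)
    (tendsto_sum_nat_add fun k => ‖u k‖ + (1 / 2 : ℝ) ^ k)
  rw [norm_sub_rev, ← Finset.sum_congr rfl fun k _ => ha k, ← map_sum, ← map_sub]
  refine norm_proj_le A ω _ fun i => ?_
  have h1 : ((s - ∑ k ∈ Finset.range K, a k : bdd A) : ∀ i, A i) i =
      ∑' k, (a (k + K) : ∀ i, A i) i := by
    have h2 : ((s - ∑ k ∈ Finset.range K, a k : bdd A) : ∀ i, A i) i =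
        (∑' k, (a k : ∀ i, A i) i) - ∑ k ∈ Finset.range K, (a k : ∀ i, A i) i := by
      simp [hsdef, mkB, Finset.sum_apply]
    rw [h2, sub_eq_iff_eq_add', (hs i).sum_add_tsum_nat_add K]
  rw [h1]
  exact tsum_of_norm_bounded ((summable_nat_add_iff K).2 hb).hasSum fun k => hn (k + K) i

instance : CStarAlgebra (U A ω) where

end Vale.Agent.P095.General.Ultra
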