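import Mathlib
import Vale.Agent.P095.General.Sector.Data
import Vale.Agent.P095.General.Sector.Ultra

/-!
For many copies the square modulus of a sector combination is governed by the values of the
kernels: the commutative limit algebra.
-/

noncomputable section

open Finset Filter Topology
open scoped ComplexConjugate ComplexOrder

namespace Vale.Agent.P095.General.Sector

universe u v

variable {ι : Type v} [Fintype ι]

/-- The scalar form. -/
def form (n : ℕ) (κ : ι → ι → ℂ) (c : ι → FreeAlgebra ℂ (ι × ι)) : ℂ :=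
  ∑ k, ∑ l, conj (evC κ (c k)) * fej n (κ k l) * evC κ (c l)

lemma map_fej {R S F : Type*} [Ring R] [Algebra ℂ R] [Ring S] [Algebra ℂ S] [FunLike F R S]
    [AlgHomClass F ℂ R S] (φ : F) (n : ℕ) (x : R) : φ (fej n x) = fej n (φ x) := by
  simp only [fej, map_sum, ← Complex.coe_smul, map_smul, map_pow]

lemma map_lift {X : Type*} {R S : Type*} [Ring R] [Algebra ℂ R] [Ring S] [Algebra ℂ S]
    (φ : R →ₐ[ℂ] S) (f : X → R) (p : FreeAlgebra ℂ X) :
    φ (FreeAlgebra.lift ℂ f p) = FreeAlgebra.lift ℂ (fun x => φ (f x)) p := by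
  have e : φ.comp (FreeAlgebra.lift ℂ f) = FreeAlgebra.lift ℂ (fun x => φ (f x)) :=
    FreeAlgebra.hom_ext (funext fun x => by simp)
  exact AlgHom.congr_fun e p

/-- In a commutative family the form is controlled by its values at kernels. -/
lemma norm_form_le {A : Type u} [CStarAlgebra A] (K : ι → ι → A)
    (hc : ∀ a b a' b', Commute (K a b) (K a' b')) (hst : ∀ a b, star (K a b) = K b a)
    (hone : ∀ a, K a a = 1) (hn : ∀ a b, ‖K a b‖ ≤ 1)
    (hpsd : ∀ t : ι → ℂ, ∃ W, star W * W = ∑ a, ∑ b, (conj (t a) * t b) • K a b)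
    (n : ℕ) (c : ι → FreeAlgebra ℂ (ι × ι)) (γ : ℂ) {ε : ℝ} (hε : 0 ≤ ε)
    (h : ∀ κ : ι → ι → ℂ, IsKer κ → ‖form n κ c - γ‖ ≤ ε) :
    ‖(∑ k, ∑ l, star (FreeAlgebra.lift ℂ (fun ab : ι × ι => K ab.1 ab.2) (c k)) * fej n (K k l) *
      FreeAlgebra.lift ℂ (fun ab : ι × ι => K ab.1 ab.2) (c l)) - γ • (1 : A)‖ ≤ ε := by
  set G : Set A := Set.range fun ab : ι × ι => K ab.1 ab.2 with hG
  set S : StarSubalgebra ℂ A := (StarAlgebra.adjoin ℂ G).topologicalClosure with hS
  have hScl : IsClosed (S : Set A) := StarSubalgebra.isClosed_topologicalClosure _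
  have hmin : ∀ U : Set A, G ⊆ StarSubalgebra.centralizer ℂ U →
      S ≤ StarSubalgebra.centralizer ℂ U :=
    fun U h => StarSubalgebra.topologicalClosure_minimal (StarAlgebra.adjoin_le h)
      (Set.isClosed_centralizer _)
  have h1 : S ≤ StarSubalgebra.centralizer ℂ G := hmin G fun x hx => by
    obtain ⟨⟨a, b⟩, rfl⟩ := hx
    refine (StarSubalgebra.mem_centralizer_iff ℂ).2 ?_
    rintro g ⟨⟨a', b'⟩, rfl⟩
    exact ⟨(hc a' b' a b).eq, by rw [hst]; exact (hc b' a' a b).eq⟩
  have h2 : S ≤ StarSubalgebra.centralizer ℂ (S : Set A) := hmin _ fun x hx => by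
    refine (StarSubalgebra.mem_centralizer_iff ℂ).2 fun g hg => ?_
    have e1 := ((StarSubalgebra.mem_centralizer_iff ℂ).1 (h1 hg) x hx).1
    have e2 := ((StarSubalgebra.mem_centralizer_iff ℂ).1 (h1 (star_mem hg)) x hx).1
    exact ⟨e1.symm, e2.symm⟩
  let instC : CommCStarAlgebra S :=
    { (inferInstance : CStarAlgebra S) with
      mul_comm := fun x y => Subtype.ext
        ((StarSubalgebra.mem_centralizer_iff ℂ).1 (h2 y.2) x x.2).1 }
  have hKmem : ∀ a b, K a b ∈ S := fun a b =>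
    StarSubalgebra.le_topologicalClosure _ (StarAlgebra.subset_adjoin ℂ G ⟨(a, b), rfl⟩)
  set Ks : ι × ι → S := fun ab => ⟨K ab.1 ab.2, hKmem ab.1 ab.2⟩ with hKs
  set X : S := (∑ k, ∑ l, star (FreeAlgebra.lift ℂ Ks (c k)) * fej n (Ks (k, l)) *
    FreeAlgebra.lift ℂ Ks (c l)) - γ • (1 : S) with hX
  have hev : (∑ k, ∑ l, star (FreeAlgebra.lift ℂ (fun ab : ι × ι => K ab.1 ab.2) (c k)) *
      fej n (K k l) * FreeAlgebra.lift ℂ (fun ab : ι × ι => K ab.1 ab.2) (c l)) - γ • (1 : A) =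
        S.subtype X := by
    have e : ∀ p, S.subtype (FreeAlgebra.lift ℂ Ks p) =
        FreeAlgebra.lift ℂ (fun ab : ι × ι => K ab.1 ab.2) p := fun p =>
      map_lift S.subtype.toAlgHom Ks p
    simp only [hX, map_sub, map_sum, map_mul, map_star, map_smul, map_one, map_fej, e]
    rfl
  rw [hev]
  show ‖X‖ ≤ ε
  rcases subsingleton_or_nontrivial S with hss | hnt
  · rw [Subsingleton.elim X 0, norm_zero]; exact hε
  rw [← (gelfandTransform_isometry S).norm_map_of_map_zero (map_zero _) X]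
  refine (ContinuousMap.norm_le _ hε).2 fun χ => ?_
  show ‖χ X‖ ≤ ε
  set κ : ι → ι → ℂ := fun a b => χ (Ks (a, b)) with hκ
  have hχs : ∀ x : S, χ (star x) = conj (χ x) := fun x => map_star χ x
  have hker : IsKer κ := by
    refine ⟨fun a b => ?_, fun a => ?_, fun a b => ?_, ?_⟩
    · have e : Ks (b, a) = star (Ks (a, b)) := Subtype.ext (hst a b).symm
      simp only [hκ, e, hχs]
    · have e : Ks (a, a) = 1 := Subtype.ext (hone a)
      simp only [hκ, e, map_one]
    · refine (spectrum.norm_le_norm_mul_of_mem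
        (WeakDual.CharacterSpace.apply_mem_spectrum χ (Ks (a, b)))).trans ?_
      exact (mul_le_of_le_one_right (norm_nonneg _) (norm_one_le (D := S))).trans (hn a b)
    · refine Matrix.PosSemidef.of_dotProduct_mulVec_nonneg ?_ fun t => ?_
      · ext a b
        have e : Ks (a, b) = star (Ks (b, a)) := Subtype.ext (hst b a).symm
        simp only [Matrix.conjTranspose_apply, Matrix.of_apply, hκ, e, hχs, RCLike.star_def]
      · obtain ⟨W, hW⟩ := hpsd t
        let := CStarAlgebra.spectralOrder A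
        have := CStarAlgebra.spectralOrderedRing A
        set y : S := ∑ a, ∑ b, (conj (t a) * t b) • Ks (a, b) with hy
        have hyv : (y : A) = star W * W := by
          rw [hW]; simp [hy, hKs, AddSubmonoidClass.coe_finsetSum]
        have hmem : χ y ∈ spectrum ℂ (y : A) := by
          rw [← StarSubalgebra.spectrum_eq]
          exact WeakDual.CharacterSpace.apply_mem_spectrum χ y
        have h3 : 0 ≤ χ y := spectrum_nonneg_of_nonneg (hyv ▸ star_mul_self_nonneg W) hmem
        refine h3.trans_eq ?_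
        simp only [hy, map_sum, map_smul, smul_eq_mul, dotProduct, Matrix.mulVec, Matrix.of_apply,
          Pi.star_apply, mul_sum, hκ, RCLike.star_def]
        exact sum_congr rfl fun a _ => sum_congr rfl fun b _ => by ring
  have hev2 : ∀ p, χ (FreeAlgebra.lift ℂ Ks p) = evC κ p := fun p =>
    map_lift (WeakDual.CharacterSpace.toAlgHom χ) Ks p
  have hf : ∀ x : S, χ (fej n x) = fej n (χ x) := fun x =>
    map_fej (WeakDual.CharacterSpace.toAlgHom χ) n x
  have hXv : χ X = form n κ c - γ := by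
    simp only [hX, form, map_sub, map_sum, map_mul, hχs, hev2, hf, map_smul, map_one,
      smul_eq_mul, mul_one, hκ]
  rw [hXv]
  exact h κ hker

/-- For many copies the square modulus is close to the prescribed multiple of the cut. -/
theorem sector_large [DecidableEq ι] (n : ℕ) (hn : 2 ≤ n) (c : ι → FreeAlgebra ℂ (ι × ι)) (γ : ℂ)
    {ε η : ℝ} (hε : 0 ≤ ε) (hη : 0 < η)
    (h : ∀ κ : ι → ι → ℂ, IsKer κ → ‖form n κ c - γ‖ ≤ ε) :
    ∃ M₀ : ℕ, ∀ M, M₀ ≤ M → ∀ (D : Type u) [CStarAlgebra D] (d : Data D M ι),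
      ‖star (d.sv n c) * d.sv n c - γ • (d.C * d.C)‖ ≤ ε + η := by
  by_contra hne
  push Not at hne
  choose M hM A inst d hd using fun i : ℕ => hne (i + n + 1)
  let ω : Ultrafilter ℕ := Filter.hyperfilter ℕ
  have hω : (ω : Filter ℕ) ≤ atTop := by
    rw [← Nat.cofinite_eq_atTop]; exact Filter.hyperfilter_le_cofinite
  have hM0 : ∀ i, 0 < M i := fun i => by have := hM i; omega
  have hnM : ∀ i, n < M i := fun i => by have := hM i; omega
  have hinv : Tendsto (fun i => 2 * (M i : ℝ)⁻¹) (ω : Filter ℕ) (𝓝 0) := by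
    have h1 : Tendsto (fun i : ℕ => 2 * ((i : ℝ) + 1)⁻¹) atTop (𝓝 0) := by
      simpa using (tendsto_one_div_add_atTop_nhds_zero_nat (𝕜 := ℝ)).const_mul 2
    refine squeeze_zero (fun i => by positivity) (fun i => ?_) (h1.mono_left hω)
    gcongr
    exact_mod_cast (show i + 1 ≤ M i by have := hM i; omega)
  let P := Ultra.proj A ω
  let k₁ : ι → ι → Ultra.bdd A := fun a b =>
    Ultra.mkB (fun i => (d i).kp a b) 1 fun i => (d i).norm_kp a b
  let k₂ : ι → ι → Ultra.bdd A := fun a b =>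
    Ultra.mkB (fun i => (d i).kbar a b) 1 fun i => (d i).norm_kbar a b
  let d₀ : Ultra.bdd A := Ultra.mkB (fun i => (d i).d0) 1 fun i => (d i).norm_d0
  let C₀ : Ultra.bdd A := Ultra.mkB (fun i => (d i).C) 1 fun i => (d i).C_norm
  let E₀ : ι → ι → Ultra.bdd A := fun a b =>
    Ultra.mkB (fun i => (d i).ehat n a b) 1 fun i => (d i).norm_ehat hn a b
  let ev₀ := FreeAlgebra.lift ℂ fun ab : ι × ι => k₁ ab.1 ab.2
  let X : Ultra.bdd A :=
    (∑ a, ∑ b, C₀ * star (ev₀ (c a)) * E₀ a b * ev₀ (c b) * C₀) - γ • (C₀ * C₀)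
  have hXi : ∀ i, (X : ∀ i, A i) i =
      star ((d i).sv n c) * (d i).sv n c - γ • ((d i).C * (d i).C) := by
    intro i
    have e : ∀ p, ((ev₀ p : Ultra.bdd A) : ∀ i, A i) i = (d i).evK p := fun p =>
      map_lift ((Pi.evalAlgHom ℂ A i).comp (Ultra.bdd A).subtype.toAlgHom) _ p
    rw [Data.star_sv_mul_sv]
    simp [X, C₀, E₀, Ultra.mkB, e, Finset.sum_apply, AddSubmonoidClass.coe_finsetSum]
  set K : ι → ι → Ultra.U A ω := fun a b => P (k₁ a b) with hK
  set Kb : ι → ι → Ultra.U A ω := fun a b => P (k₂ a b) with hKb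
  set ev := FreeAlgebra.lift ℂ fun ab : ι × ι => K ab.1 ab.2 with hevdef
  have hev : ∀ p, P (ev₀ p) = ev p := fun p => map_lift P.toAlgHom _ p
  have hcomm : ∀ (x y : Ultra.bdd A), (∀ i, ‖(x : ∀ i, A i) i * (y : ∀ i, A i) i -
      (y : ∀ i, A i) i * (x : ∀ i, A i) i‖ ≤ 2 * (M i : ℝ)⁻¹) → Commute (P x) (P y) := by
    intro x y hxy
    show P x * P y = P y * P x
    rw [← map_mul, ← map_mul]
    exact Ultra.proj_eq_of_tendsto A ω _ _ (squeeze_zero (fun _ => norm_nonneg _)
      (fun i => by simpa using hxy i) hinv)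
  have hKc : ∀ a b a' b', Commute (K a b) (K a' b') := fun a b a' b' =>
    hcomm _ _ fun i => (d i).norm_comm_kp (hM0 i) a b a' b'
  have hKd : ∀ a b, Commute (P d₀) (K a b) := fun a b => hcomm _ _ fun i => by
    show ‖(d i).d0 * (d i).kp a b - (d i).kp a b * (d i).d0‖ ≤ _
    unfold Data.kp
    split_ifs
    · simp
    · rw [norm_sub_rev]; exact (d i).norm_comm_d0 (hM0 i) a b
  have hKst : ∀ a b, star (K a b) = K b a := fun a b => by
    rw [hK, ← map_star]
    congr 1
    exact Subtype.ext (funext fun i => (d i).star_kp a b)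
  have hK1 : ∀ a, K a a = 1 := fun a => by
    show P (k₁ a a) = 1
    rw [← map_one P]
    congr 1
    exact Subtype.ext (funext fun i => by simp [k₁, Ultra.mkB, Data.kp])
  have hKn : ∀ a b, ‖K a b‖ ≤ 1 := fun a b =>
    Ultra.norm_proj_le A ω _ fun i => (d i).norm_kp a b
  have hKpsd : ∀ t : ι → ℂ, ∃ W, star W * W = ∑ a, ∑ b, (conj (t a) * t b) • K a b := by
    intro t
    choose W hW using fun i => (d i).kp_psd t
    have hWn : ∀ i, ‖W i‖ ≤ ∑ a, ∑ b, ‖t a‖ * ‖t b‖ + 1 := fun i => by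
      have h1 : ‖W i‖ * ‖W i‖ ≤ ∑ a, ∑ b, ‖t a‖ * ‖t b‖ := by
        rw [← CStarRing.norm_star_mul_self, hW]
        refine (norm_sum_le _ _).trans (sum_le_sum fun a _ => (norm_sum_le _ _).trans
          (sum_le_sum fun b _ => ?_))
        rw [norm_smul, norm_mul, RCLike.norm_conj]
        exact mul_le_of_le_one_right (by positivity) ((d i).norm_kp a b)
      nlinarith [norm_nonneg (W i), sq_nonneg (‖W i‖ - 1)]
    refine ⟨P (Ultra.mkB W _ hWn), ?_⟩
    simp only [hK, ← map_star, ← map_mul, ← map_smul, ← map_sum]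
    congr 1
    exact Subtype.ext (funext fun i => by
      simp [Ultra.mkB, k₁, hW, Finset.sum_apply, AddSubmonoidClass.coe_finsetSum])
  have hE : ∀ a b, P (E₀ a b) = fej n (Kb a b) := fun a b => by
    have h1 : Tendsto (fun i : ℕ => 2 * (n : ℝ) ^ 2 / ((i : ℝ) + 1)) atTop (𝓝 0) := by
      have := (tendsto_one_div_add_atTop_nhds_zero_nat (𝕜 := ℝ)).const_mul (2 * (n : ℝ) ^ 2)
      simp only [mul_one_div, mul_zero] at this
      exact this
    show P (E₀ a b) = fej n (P (k₂ a b))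
    refine Eq.trans ?_ (map_fej P.toAlgHom n (k₂ a b))
    refine Ultra.proj_eq_of_tendsto A ω _ _ (squeeze_zero (fun _ => norm_nonneg _) (fun i => ?_)
      (h1.mono_left hω))
    have e : ((fej n (k₂ a b) : Ultra.bdd A) : ∀ i, A i) i = fej n ((d i).kbar a b) :=
      map_fej ((Pi.evalAlgHom ℂ A i).comp (Ultra.bdd A).subtype.toAlgHom) n (k₂ a b)
    show ‖(d i).ehat n a b - _‖ ≤ _
    rw [e]
    refine ((d i).norm_ehat_sub_fej hn (hnM i) a b).trans ?_
    gcongr
    have : ((i : ℝ) + n + 1) ≤ M i := by exact_mod_cast hM i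
    linarith
  have hdiag : ∀ a, Kb a a = P d₀ := fun a => by
    simp only [hKb]
    exact congrArg P (Subtype.ext (funext fun i => (d i).kbar_self a))
  have hd0C : P d₀ * P C₀ = P C₀ := by
    rw [← map_mul]
    exact congrArg P (Subtype.ext (funext fun i => (d i).d0_mul_C (hM0 i)))
  have hdp : ∀ m : ℕ, P d₀ ^ m * P C₀ = P C₀ := by
    intro m
    induction m with
    | zero => simp
    | succ m ih => rw [pow_succ, mul_assoc, hd0C, ih]
  have hone : ∀ x, fej n (1 : Ultra.U A ω) * x = x := fun x => by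
    simp only [fej, one_pow, ← sum_smul, sum_wt hn, one_smul, one_mul]
  have hswap : ∀ a b, fej n (Kb a b) * ev (c b) * P C₀ = fej n (K a b) * ev (c b) * P C₀ := by
    intro a b
    rcases eq_or_ne a b with rfl | hab
    · rw [hdiag, hK1, hone]
      have hc2 : ∀ m : ℕ, Commute (P d₀ ^ m) (ev (c a)) := fun m =>
        (commute_lift _ _ (fun ab : ι × ι => hKd ab.1 ab.2) _).pow_left m
      simp only [fej, sum_mul, smul_mul_assoc, (hc2 _).eq]
      simp only [mul_assoc, hdp, ← sum_smul, sum_wt hn, one_smul]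
    · have : k₁ a b = k₂ a b := Subtype.ext (funext fun i => by simp [k₁, k₂, Ultra.mkB, Data.kp, hab])
      rw [hK, hKb]
      simp only [this]
  have hPX : P X = P C₀ * ((∑ a, ∑ b, star (ev (c a)) * fej n (K a b) * ev (c b)) -
      γ • (1 : Ultra.U A ω)) * P C₀ := by
    simp only [X, map_sub, map_sum, map_mul, map_star, map_smul, hev, hE, mul_sub, sub_mul,
      mul_sum, sum_mul, mul_smul_comm, smul_mul_assoc, mul_one]
    congr 1
    refine sum_congr rfl fun a _ => sum_congr rfl fun b _ => ?_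
    have := hswap a b
    simp only [mul_assoc] at this ⊢
    rw [this]
  have hC1 : ‖P C₀‖ ≤ 1 := Ultra.norm_proj_le A ω _ fun i => (d i).C_norm
  have hbound : ‖P X‖ ≤ ε := by
    rw [hPX]
    refine (norm_mul_le _ _).trans ((mul_le_of_le_one_right (norm_nonneg _) hC1).trans
      ((norm_mul_le _ _).trans ((mul_le_of_le_one_left (norm_nonneg _) hC1).trans ?_)))
    exact norm_form_le K hKc hKst hK1 hKn hKpsd n c γ hε h
  obtain ⟨i, hi⟩ := (Ultra.eventually_le_of_norm_le A ω X hbound hη).exists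
  rw [hXi] at hi
  exact absurd hi (not_le.2 (hd i))

end Vale.Agent.P095.General.Sector
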